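import Vale.Agent.P275.H341.Psh

/-! # P275, lowest degree: row A2 (spec of helper912) -/

namespace Vale.Agent.P275.R2.H920

open Filter Topology Asymptotics Vale.Agent.P275.H341

/-- the partition with one part -/
def row1 (k : ℕ) : Fin k → ℕ := fun i => if (i : ℕ) = 0 then k else 0

theorem sum_succ (n : ℕ) : ∑ t ∈ Finset.range n, (t + 1) = (n + 1).choose 2 := by
  induction n with
  | zero => simp
  | succ n ih =>
    rw [Finset.sum_range_succ, ih, Nat.choose_succ_succ' (n + 1) 1, Nat.choose_one_right]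
    ring

theorem sum_ch (k : ℕ) : ∑ j ∈ Finset.range k, j.choose 2 = k.choose 3 := by
  induction k with
  | zero => simp
  | succ k ih =>
    rw [Finset.sum_range_succ, ih, Nat.choose_succ_succ' k 2]
    ring

theorem ch_id (a m : ℕ) :
    (a + m + 1).choose 2 + m.choose 2 = (a + m) * m + (a + 1).choose 2 := by
  have h : (((a + m + 1).choose 2 : ℕ) : ℚ) + ((m.choose 2 : ℕ) : ℚ) =
      ((a + m : ℕ) : ℚ) * (m : ℚ) + (((a + 1).choose 2 : ℕ) : ℚ) := by
    rw [Nat.cast_choose_two, Nat.cast_choose_two, Nat.cast_choose_two]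
    push_cast
    ring
  exact_mod_cast h

theorem sum_fin_ch (k : ℕ) : ∑ i : Fin k, (k - 1 - (i : ℕ)).choose 2 = k.choose 3 := by
  rw [← sum_ch k, Finset.sum_range (fun j => j.choose 2)]
  rw [← Equiv.sum_comp Fin.revPerm]
  refine Finset.sum_congr rfl fun i _ => ?_
  have : ((Fin.revPerm i : Fin k) : ℕ) = k - 1 - (i : ℕ) := by
    simp [Fin.revPerm, Fin.val_rev]
    omega
  rw [this]
  congr 1
  have := i.2
  omega

/-- the exponent -/
theorem expo {k : ℕ} (lam : Fin k → ℕ) :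
    k.choose 3 + ∑ i : Fin k, (lam i + (k - 1 - (i : ℕ)) + 1).choose 2 =
      ∑ i : Fin k, (lam i + (k - 1 - (i : ℕ))) * (k - 1 - (i : ℕ)) +
        ∑ i : Fin k, (lam i + 1).choose 2 := by
  rw [← sum_fin_ch k, ← Finset.sum_add_distrib, ← Finset.sum_add_distrib]
  refine Finset.sum_congr rfl fun i _ => ?_
  rw [← ch_id]
  ring

/-- the exponent is small unless `lam` has one part -/
theorem small {k : ℕ} {lam : Fin k → ℕ} (hl : lam ∈ Pt k) (hne : lam ≠ row1 k) :
    ∑ i : Fin k, (lam i + 1).choose 2 ≤ k * (k + 1) / 2 - 1 := by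
  unfold Pt at hl
  rw [Finset.mem_filter, Finset.Nat.mem_antidiagonalTuple] at hl
  obtain ⟨hs, hm⟩ := hl
  have hk : 2 ≤ k := by
    by_contra hk
    apply hne
    have : k = 0 ∨ k = 1 := by omega
    rcases this with rfl | rfl
    · funext i; exact i.elim0
    · funext i
      have hi : i = 0 := Subsingleton.elim _ _
      subst hi
      rw [Fin.sum_univ_one] at hs
      simp [row1, hs]
  obtain ⟨n, rfl⟩ : ∃ n, k = n + 2 := ⟨k - 2, by omega⟩
  have h0 : lam 0 ≤ n + 1 := by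
    by_contra h0
    apply hne
    rw [Fin.sum_univ_succ] at hs
    have h1 : lam 0 = n + 2 := by omega
    have h2 : ∑ i : Fin (n + 1), lam i.succ = 0 := by omega
    rw [Finset.sum_eq_zero_iff] at h2
    funext i
    refine Fin.cases ?_ (fun j => ?_) i
    · simp [row1, h1]
    · rw [h2 j (Finset.mem_univ _)]
      simp [row1]
  have h1 : 2 * ∑ i : Fin (n + 2), (lam i + 1).choose 2 ≤ (n + 2) * (n + 2) := by
    rw [Finset.mul_sum]
    have h2 : ∀ i : Fin (n + 2), 2 * (lam i + 1).choose 2 ≤ lam i * (n + 2) := by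
      intro i
      have h3 : 2 * (lam i + 1).choose 2 = (lam i + 1) * lam i := by
        have : ((2 * (lam i + 1).choose 2 : ℕ) : ℚ) = (((lam i + 1) * lam i : ℕ) : ℚ) := by
          push_cast
          rw [Nat.cast_choose_two]
          push_cast
          ring
        exact_mod_cast this
      rw [h3, mul_comm]
      have h4 : lam i ≤ n + 1 := (hm 0 i (Fin.zero_le _)).trans h0
      exact Nat.mul_le_mul_left _ (by omega)
    calc ∑ i : Fin (n + 2), 2 * (lam i + 1).choose 2 ≤ ∑ i : Fin (n + 2), lam i * (n + 2) :=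
          Finset.sum_le_sum fun i _ => h2 i
      _ = (n + 2) * (n + 2) := by rw [← Finset.sum_mul, hs]
  have h5 : ∑ i : Fin (n + 2), (lam i + 1).choose 2 + 1 ≤ (n + 2) * (n + 2 + 1) / 2 := by
    rw [Nat.le_div_iff_mul_le (by norm_num)]
    nlinarith
  omega

theorem norm_num_le {y : ℝ} (hy : 2 ≤ y) (t : ℕ) : ‖((y : ℂ) ^ (t + 1) - 1)‖ ≤ y ^ (t + 1) := by
  have h1 : ((y : ℂ) ^ (t + 1) - 1) = ((y ^ (t + 1) - 1 : ℝ) : ℂ) := by push_cast; ring
  rw [h1, Complex.norm_real, Real.norm_eq_abs]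
  have h2 : 1 ≤ y ^ (t + 1) := one_le_pow₀ (by linarith)
  rw [abs_of_nonneg (by linarith)]
  linarith

theorem norm_den_ge {y : ℝ} (hy : 2 ≤ y) {a b : ℕ} (h : b < a) :
    y ^ a / 2 ≤ ‖((y : ℂ) ^ a - (y : ℂ) ^ b)‖ := by
  have h1 : ((y : ℂ) ^ a - (y : ℂ) ^ b) = ((y ^ a - y ^ b : ℝ) : ℂ) := by push_cast; ring
  rw [h1, Complex.norm_real, Real.norm_eq_abs]
  refine le_trans ?_ (le_abs_self _)
  obtain ⟨c, rfl⟩ : ∃ c, a = b + 1 + c := ⟨a - (b + 1), by omega⟩
  have h2 : 2 * y ^ b ≤ y ^ (b + 1 + c) := by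
    have h3 : y ^ (b + 1) ≤ y ^ (b + 1 + c) := pow_le_pow_right₀ (by linarith) (by omega)
    have h4 : 2 * y ^ b ≤ y ^ (b + 1) := by
      rw [pow_succ, mul_comm]
      exact mul_le_mul_of_nonneg_left hy (by positivity)
    linarith
  linarith

theorem hk_bound {k : ℕ} {lam : Fin k → ℕ} (hl : lam ∈ Pt k) {y : ℝ} (hy : 2 ≤ y) :
    ‖hk (y : ℂ) lam‖ ≤ 2 ^ (∑ i : Fin k, (k - 1 - (i : ℕ))) *
      y ^ (∑ i : Fin k, (lam i + 1).choose 2) := by
  have hy0 : 0 < y := by linarith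
  unfold Pt at hl
  rw [Finset.mem_filter] at hl
  have hm := hl.2
  set l : Fin k → ℕ := fun i => lam i + (k - 1 - (i : ℕ)) with hldef
  unfold hk
  rw [norm_div, norm_mul, norm_pow, Complex.norm_real, Real.norm_eq_abs, abs_of_pos hy0,
    norm_prod, norm_prod]
  have hnum : y ^ (k.choose 3) * ∏ i : Fin k, ‖∏ t ∈ Finset.range (l i), ((y : ℂ) ^ (t + 1) - 1)‖ ≤
      y ^ (k.choose 3 + ∑ i : Fin k, (l i + 1).choose 2) := by
    rw [pow_add]
    refine mul_le_mul_of_nonneg_left ?_ (by positivity)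
    rw [← Finset.prod_pow_eq_pow_sum]
    refine Finset.prod_le_prod (fun i _ => norm_nonneg _) fun i _ => ?_
    rw [norm_prod, ← sum_succ, ← Finset.prod_pow_eq_pow_sum]
    exact Finset.prod_le_prod (fun t _ => norm_nonneg _) fun t _ => norm_num_le hy t
  have hden : y ^ (∑ i : Fin k, l i * (k - 1 - (i : ℕ))) / 2 ^ (∑ i : Fin k, (k - 1 - (i : ℕ))) ≤
      ∏ i : Fin k, ‖∏ j ∈ Finset.Ioi i, ((y : ℂ) ^ (l i) - (y : ℂ) ^ (l j))‖ := by
    rw [← Finset.prod_pow_eq_pow_sum, ← Finset.prod_pow_eq_pow_sum, ← Finset.prod_div_distrib]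
    refine Finset.prod_le_prod (fun i _ => by positivity) fun i _ => ?_
    rw [norm_prod]
    have hcard : (Finset.Ioi i).card = k - 1 - (i : ℕ) := Fin.card_Ioi i
    calc y ^ (l i * (k - 1 - (i : ℕ))) / 2 ^ (k - 1 - (i : ℕ))
        = ∏ j ∈ Finset.Ioi i, (y ^ (l i) / 2) := by
          rw [Finset.prod_const, hcard, div_pow, pow_mul]
      _ ≤ ∏ j ∈ Finset.Ioi i, ‖((y : ℂ) ^ (l i) - (y : ℂ) ^ (l j))‖ := by
          refine Finset.prod_le_prod (fun j _ => by positivity) fun j hj => ?_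
          rw [Finset.mem_Ioi] at hj
          refine norm_den_ge hy ?_
          have h1 := hm i j hj.le
          have h2 := j.2
          have h3 : (i : ℕ) < (j : ℕ) := hj
          show lam j + (k - 1 - (j : ℕ)) < lam i + (k - 1 - (i : ℕ))
          omega
  have hd0 : 0 < y ^ (∑ i : Fin k, l i * (k - 1 - (i : ℕ))) / 2 ^ (∑ i : Fin k, (k - 1 - (i : ℕ))) := by
    positivity
  refine (div_le_div₀ (by positivity) hnum hd0 hden).trans (le_of_eq ?_)
  rw [show k.choose 3 + ∑ i : Fin k, (l i + 1).choose 2 = _ from expo lam, pow_add]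
  field_simp
  rfl

/-- ROW A2 -/
theorem rowA2 {k d : ℕ} (hd : 1 ≤ d) {lam : Fin k → ℕ} (hl : lam ∈ Pt k) (hne : lam ≠ row1 k) :
    (fun x : ℝ => hk ((x : ℂ) ^ d) lam) =O[atTop] fun x : ℝ => x ^ (d * (k * (k + 1) / 2 - 1)) := by
  refine IsBigO.of_bound (2 ^ (∑ i : Fin k, (k - 1 - (i : ℕ)))) ?_
  filter_upwards [eventually_ge_atTop (2 : ℝ)] with x hx
  have hx0 : 0 < x := by linarith
  have hy : 2 ≤ x ^ d := by
    calc (2 : ℝ) ≤ x := hx
      _ = x ^ 1 := (pow_one x).symm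
      _ ≤ x ^ d := pow_le_pow_right₀ (by linarith) hd
  have h1 := hk_bound hl hy
  rw [Complex.ofReal_pow] at h1
  refine h1.trans ?_
  refine mul_le_mul_of_nonneg_left ?_ (by positivity)
  rw [Real.norm_eq_abs, abs_of_pos (by positivity), pow_mul]
  exact pow_le_pow_right₀ (by linarith) (small hl hne)

end Vale.Agent.P275.R2.H920
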